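import Mathlib
import Vale.Agent.P052.Points

/-!
Borsuk's partition conjecture fails in dimension 63.
-/

namespace Vale.Agent.Results.P052.Dim63

open Vale.Agent.P052

theorem card_le_of_cover {α β : Type} (K : Finset α) (p : α → β) (Y : Set β) {m : ℕ}
    (S : Fin m → Set β) (hY : Y = p '' (K : Set α)) (hS : Y = ⋃ k, S k) (c : ℕ)
    [∀ k, DecidablePred fun i => p i ∈ S k]
    (hc : ∀ k, (K.filter fun i => p i ∈ S k).card ≤ c) : K.card ≤ m * c := by
  classical
  have hcover : K ⊆ Finset.univ.biUnion fun k => K.filter fun i => p i ∈ S k := by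
    intro i hi
    have hm : p i ∈ Y := hY ▸ Set.mem_image_of_mem p (Finset.mem_coe.2 hi)
    rw [hS] at hm
    obtain ⟨k, hk⟩ := Set.mem_iUnion.1 hm
    exact Finset.mem_biUnion.2 ⟨k, Finset.mem_univ _, Finset.mem_filter.2 ⟨hi, hk⟩⟩
  refine (Finset.card_le_card hcover).trans (Finset.card_biUnion_le.trans ?_)
  exact (Finset.sum_le_card_nsmul _ _ c fun k _ => hc k).trans (by simp)

/-- A set of 321 points in `ℝ^63` is not a union of 64 subsets of smaller diameter. -/
theorem result :
    ∃ Y : Set (EuclideanSpace ℝ (Fin 63)),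
      Y.Finite ∧ 0 < Metric.diam Y ∧
        ¬ ∃ S : Fin 64 → Set (EuclideanSpace ℝ (Fin 63)),
          Y = ⋃ k, S k ∧ ∀ k, Metric.diam (S k) < Metric.diam Y := by
  classical
  let e : LinearMap.range Qlin ≃ₗᵢ[ℝ] EuclideanSpace ℝ (Fin 63) :=
    ((stdOrthonormalBasis ℝ (LinearMap.range Qlin)).reindex
      (finCongr finrank_range_Qlin)).repr
  let p : V → EuclideanSpace ℝ (Fin 63) := fun i => e (pointW i)
  let Y : Set (EuclideanSpace ℝ (Fin 63)) := p '' (kept : Set V)
  have hfin : Y.Finite := (Finset.finite_toSet kept).image p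
  let D : ℝ := Real.sqrt (1 / 3)
  have hDpos : 0 < D := Real.sqrt_pos.2 (by norm_num)
  have hD : D ^ 2 = 1 / 3 := Real.sq_sqrt (by norm_num)
  have hdist : ∀ i ∈ kept, ∀ j ∈ kept, i ≠ j →
      (Adj i j → dist (p i) (p j) < D) ∧ (¬ Adj i j → dist (p i) (p j) = D) := by
    intro i hi j hj hij
    have hp : dist (p i) (p j) = dist (pointW i) (pointW j) := e.dist_map _ _
    obtain ⟨a, b⟩ := dist_kept hi hj hij
    rw [hp]
    refine ⟨fun h => ?_, fun h => ?_⟩
    · have := a h; nlinarith [dist_nonneg (x := pointW i) (y := pointW j)]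
    · exact (pow_left_inj₀ dist_nonneg hDpos.le two_ne_zero).1 ((b h).trans hD.symm)
  have hdiam : Metric.diam Y = D := by
    apply le_antisymm
    · refine Metric.diam_le_of_forall_dist_le hDpos.le ?_
      rintro _ ⟨i, hi, rfl⟩ _ ⟨j, hj, rfl⟩
      by_cases hij : i = j
      · simp [hij, hDpos.le]
      · by_cases ha : Adj i j
        · exact ((hdist i hi j hj hij).1 ha).le
        · exact ((hdist i hi j hj hij).2 ha).le
    · obtain ⟨i, hi, hi0, ha⟩ := exists_far
      have h0 : (0 : V) ∈ kept := Finset.mem_insert_self _ _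
      rw [← (hdist 0 h0 i hi (Ne.symm hi0)).2 ha]
      exact Metric.dist_le_diam_of_mem hfin.isBounded ⟨0, h0, rfl⟩ ⟨i, hi, rfl⟩
  refine ⟨Y, hfin, hdiam ▸ hDpos, ?_⟩
  rintro ⟨S, hS, hlt⟩
  have hbd : ∀ k, Bornology.IsBounded (S k) := fun k =>
    hfin.isBounded.subset (by rw [hS]; exact Set.subset_iUnion S k)
  have hpiece : ∀ k, (kept.filter fun i => p i ∈ S k).card ≤ 5 := by
    intro k
    refine clique_le_five _ fun i hi j hj hij => ?_
    rw [Finset.mem_filter] at hi hj
    by_contra ha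
    have h1 := Metric.dist_le_diam_of_mem (hbd k) hi.2 hj.2
    rw [(hdist i hi.1 j hj.1 hij).2 ha] at h1
    exact absurd (h1.trans_lt (hlt k)) (by simp [hdiam])
  have h := card_le_of_cover kept p Y S rfl hS 5 hpiece
  rw [card_kept] at h
  exact absurd h (by norm_num)

end Vale.Agent.Results.P052.Dim63
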